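import Vale.Agent.P157.Parisi.Sphere.Perturb.Basic

/-!
The Ghirlanda–Guerra identity up to the fluctuation of one Gaussian observable, by integration by
parts.
-/

noncomputable section

open MeasureTheory ProbabilityTheory
open scoped BigOperators NNReal ENNReal

namespace Vale.Agent.P157.Parisi.Sphere.Perturb

open Vale.Agent.P157.Parisi.Perturb (absJ integrable_coord gauss_rav_ibp abs_le_absSum rav_first)
open Vale.Agent.P168.Limit.SelfAvg (field measurable_field)
open Vale.Agent.P168.Toolkit (gaussPi)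
open Vale.Agent.P168.Limit (gw logZ gav rav nav gw_nonneg gw_le_one sum_gw abs_rav_le rav_const
  rav_add rav_const_mul rav_sum hasDerivAt_nav gaussPi_ibp rav_succ)

variable {N L : ℕ} {pts : Pts N} {f : ℝ → ℝ} {s μ : ℝ} {x : Fin L → ℝ}

/-- The disorder average of a replica average. -/
def expRep (f : ℝ → ℝ) (s μ : ℝ) (x : Fin L → ℝ) (m : ℕ) (F : (Fin m → Conf pts) → ℝ) : ℝ :=
  ∫ d, rav m (totalH (P := pts) f s x d) F ∂disLaw N L μ

lemma repMean_eq (pts : Pts N) (m : ℕ) (x : Fin L → ℝ) (F : (Fin m → Conf pts) → ℝ) :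
    (sysState pts f s x μ).repMean m F = expRep (pts := pts) f s μ x m F := rfl

lemma integrable_rav (hf : Continuous f) (m : ℕ) (F : (Fin m → Conf pts) → ℝ) :
    Integrable (fun d => rav m (totalH (P := pts) f s x d) F) (disLaw N L μ) :=
  Integrable.of_bound ((measurable_rav hf s m F).comp measurable_prodMk_left).aestronglyMeasurable
    (∑ σ, |F σ|) (ae_of_all _ fun _ => abs_rav_le m _ F (abs_le_absSum F))

lemma abs_expRep_le (m : ℕ) {F : (Fin m → Conf pts) → ℝ} {B : ℝ} (h : ∀ σ, |F σ| ≤ B) :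
    |expRep (pts := pts) f s μ x m F| ≤ B := by
  rw [← Real.norm_eq_abs]
  exact (norm_integral_le_of_norm_le_const (C := B)
    (ae_of_all _ fun d => abs_rav_le m _ F h)).trans (le_of_eq (by simp))

lemma expRep_sum (hf : Continuous f) {α : Type*} (S : Finset α) (m : ℕ)
    (F : α → (Fin m → Conf pts) → ℝ) :
    expRep (pts := pts) f s μ x m (fun σ => ∑ a ∈ S, F a σ) = ∑ a ∈ S, expRep (pts := pts) f s μ x m (F a) := by
  simp only [expRep, rav_sum]
  exact integral_finsetSum _ fun a _ => integrable_rav hf m (F a)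

lemma expRep_const_mul (m : ℕ) (c : ℝ) (F : (Fin m → Conf pts) → ℝ) :
    expRep (pts := pts) f s μ x m (fun σ => c * F σ) = c * expRep (pts := pts) f s μ x m F := by
  simp only [expRep, rav_const_mul, integral_const_mul]

lemma expRep_congr (m : ℕ) {F F' : (Fin m → Conf pts) → ℝ} (h : ∀ σ, F σ = F' σ) :
    expRep (pts := pts) f s μ x m F = expRep (pts := pts) f s μ x m F' := by rw [funext h]

lemma integrable_coord_rav (hf : Continuous f) (c : PertIdx N L) (m : ℕ)
    (G : (Fin m → Conf pts) → ℝ) :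
    Integrable (fun d : Dis N L => d.2.2 c * rav m (totalH (P := pts) f s x d) G) (disLaw N L μ) :=
  ((integrable_coord c).abs.mul_const (∑ σ, |G σ|)).mono'
    (((measurable_pi_apply c).comp (measurable_snd.comp measurable_snd)).mul
      ((measurable_rav hf s m G).comp measurable_prodMk_left)).aestronglyMeasurable
    (ae_of_all _ fun d => by
      rw [Real.norm_eq_abs, abs_mul]
      exact mul_le_mul_of_nonneg_left (abs_rav_le m _ G (abs_le_absSum G)) (abs_nonneg _))

/-- Integration by parts in one coordinate. -/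
theorem ibp_coord (hf : Continuous f) (c : PertIdx N L) (m : ℕ) (G : (Fin m → Conf pts) → ℝ) :
    ∫ d, d.2.2 c * rav m (totalH (P := pts) f s x d) G ∂disLaw N L μ =
      s * x c.1 * ((∑ q : Fin m, expRep (pts := pts) f s μ x m fun σ => G σ * feat c (σ q)) -
        (m : ℝ) * expRep (pts := pts) f s μ x (m + 1)
          fun σ => G (fun l => σ l.castSucc) * feat c (σ (Fin.last m))) := by
  have i1 := fun q : Fin m =>
    integrable_rav (s := s) (μ := μ) (x := x) hf m fun σ => G σ * feat c (σ q)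
  have i2 := integrable_rav (s := s) (μ := μ) (x := x) hf (m + 1)
    fun σ => G (fun l => σ l.castSucc) * feat c (σ (Fin.last m))
  have i3 : Integrable (fun d : Dis N L => s * x c.1 * ((∑ q : Fin m,
      rav m (totalH (P := pts) f s x d) fun σ => G σ * feat c (σ q)) - (m : ℝ) *
      rav (m + 1) (totalH (P := pts) f s x d) fun σ => G (fun l => σ l.castSucc) * feat c (σ (Fin.last m))))
      (disLaw N L μ) :=
    ((integrable_finsetSum _ fun q _ => i1 q).sub (i2.const_mul _)).const_mul _
  simp only [expRep]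
  rw [← integral_finsetSum _ fun q _ => i1 q, ← integral_const_mul (m : ℝ),
    ← integral_sub (integrable_finsetSum _ fun q _ => i1 q) (i2.const_mul _),
    ← integral_const_mul (s * x c.1)]
  have iL := integrable_coord_rav (s := s) (μ := μ) (x := x) hf c m G
  unfold disLaw at iL i3 ⊢
  rw [integral_prod _ iL, integral_prod _ i3]
  refine integral_congr_ae ?_
  filter_upwards [iL.prod_right_ae, i3.prod_right_ae] with n h1 h2
  rw [integral_prod _ h1, integral_prod _ h2]
  refine integral_congr_ae (ae_of_all _ fun g => ?_)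
  simp only [totalH_eq]
  rw [gauss_rav_ibp]
  refine integral_congr_ae (ae_of_all _ fun J => ?_)
  simp only [mul_left_comm _ (s * x c.1), rav_const_mul, ← Finset.mul_sum]
  ring

/-- The mean of a bounded function of replicas times the observable of replica `0`. -/
theorem ibp_obs [NeZero N] (hf : Continuous f) (P : Fin L) (n : ℕ)
    (F : (Fin (n + 1) → Conf pts) → ℝ) :
    ∫ d, rav (n + 1) (totalH (P := pts) f s x d) (fun σ => F σ * gObs P d.2.2 (σ 0)) ∂disLaw N L μ =
      s * x P * (1 / 4) ^ (P.val + 1) *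
        ((expRep (pts := pts) f s μ x (n + 1) F + ∑ l : Fin n,
            expRep (pts := pts) f s μ x (n + 1) fun σ => F σ * overlap (σ 0) (σ l.succ) ^ (P.val + 1)) -
          ((n : ℝ) + 1) * expRep (pts := pts) f s μ x (n + 2) fun σ =>
            F (fun l => σ l.castSucc) * overlap (σ 0) (σ (Fin.last (n + 1))) ^ (P.val + 1)) := by
  have e : ∀ d : Dis N L, rav (n + 1) (totalH (P := pts) f s x d) (fun σ => F σ * gObs P d.2.2 (σ 0)) =
      ∑ v : Fin (P.val + 1) → Fin N,
        d.2.2 ⟨P, v⟩ * rav (n + 1) (totalH (P := pts) f s x d) (fun σ => F σ * feat ⟨P, v⟩ (σ 0)) := by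
    intro d
    simp only [← rav_const_mul, ← rav_sum]
    refine congrArg _ (funext fun σ => ?_)
    simp only [gObs, Finset.mul_sum]
    exact Finset.sum_congr rfl fun v _ => by ring
  simp only [e]
  rw [integral_finsetSum _ fun v _ => integrable_coord_rav hf _ _ _]
  simp only [ibp_coord hf]
  have hS : ∀ (k : ℕ) (G : (Fin k → Conf pts) → ℝ) (a b : (Fin k → Conf pts) → Conf pts),
      ∑ v : Fin (P.val + 1) → Fin N,
          expRep (pts := pts) f s μ x k (fun σ => G σ * feat ⟨P, v⟩ (a σ) * feat ⟨P, v⟩ (b σ)) =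
        (1 / 4) ^ (P.val + 1) *
          expRep (pts := pts) f s μ x k (fun σ => G σ * overlap (a σ) (b σ) ^ (P.val + 1)) := by
    intro k G a b
    rw [← expRep_sum hf, ← expRep_const_mul]
    refine expRep_congr k fun σ => ?_
    simp only [mul_assoc (G σ), ← Finset.mul_sum, sum_feat_mul]
    ring
  rw [← Finset.mul_sum, Finset.sum_sub_distrib, ← Finset.mul_sum, Finset.sum_comm,
    Fin.sum_univ_succ, hS (n + 1) F (fun σ => σ 0) fun σ => σ 0,
    Finset.sum_congr rfl fun l _ => hS (n + 1) F (fun σ => σ 0) fun σ => σ (Fin.succ l),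
    hS (n + 1 + 1) (fun σ => F fun l => σ l.castSucc) (fun σ => σ (Fin.castSucc 0))
      fun σ => σ (Fin.last (n + 1)), ← Finset.mul_sum]
  simp only [overlap_self, one_pow, mul_one, Fin.castSucc_zero, Nat.cast_add, Nat.cast_one]
  ring

/-- The fluctuation of the observable. -/
def fl (f : ℝ → ℝ) (s μ : ℝ) (pts : Pts N) (P : Fin L) (x : Fin L → ℝ) : ℝ :=
  ∫ d, gav (totalH (P := pts) f s x d) (fun σ : Conf pts => |gObs P d.2.2 σ -
    ∫ d', gav (totalH (P := pts) f s x d') (gObs P d'.2.2) ∂disLaw N L μ|) ∂disLaw N L μ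

lemma fl_nonneg (pts : Pts N) (P : Fin L) : 0 ≤ fl f s μ pts P x :=
  integral_nonneg fun _ => Finset.sum_nonneg fun _ _ =>
    mul_nonneg (gw_nonneg _ _) (abs_nonneg _)

/-- The mean of the observable. -/
theorem mean_obs [NeZero N] (hf : Continuous f) (P : Fin L) :
    ∫ d, gav (totalH (P := pts) f s x d) (gObs P d.2.2) ∂disLaw N L μ =
      s * x P * (1 / 4) ^ (P.val + 1) *
        (1 - expRep (pts := pts) f s μ x 2 fun σ : Fin 2 → Conf pts => overlap (σ 0) (σ 1) ^ (P.val + 1)) := by
  have h := ibp_obs (s := s) (μ := μ) (x := x) hf P 0 (fun _ : Fin 1 → Conf pts => (1 : ℝ))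
  have e1 : expRep (pts := pts) f s μ x 1 (fun _ : Fin 1 → Conf pts => (1 : ℝ)) = 1 := by simp [expRep, rav_const]
  simp only [one_mul, rav_first] at h
  rw [h, e1, show (Fin.last (0 + 1) : Fin 2) = 1 from rfl]
  simp

/-- The identity up to the fluctuation. -/
theorem identity_le [NeZero N] (hf : Continuous f) (hs : 0 < s) (P : Fin L) (hx : 1 ≤ x P) (n : ℕ)
    {F : (Fin (n + 1) → Conf pts) → ℝ} (hF : ∀ σ, |F σ| ≤ 1) :
    |((n : ℝ) + 1) * expRep (pts := pts) f s μ x (n + 2)
        (fun σ => F (fun l => σ l.castSucc) *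
          overlap (σ 0) (σ (Fin.last (n + 1))) ^ (P.val + 1)) -
      (expRep (pts := pts) f s μ x (n + 1) F *
          expRep (pts := pts) f s μ x 2 (fun σ : Fin 2 → Conf pts => overlap (σ 0) (σ 1) ^ (P.val + 1)) +
        ∑ l : Fin n,
          expRep (pts := pts) f s μ x (n + 1) fun σ => F σ * overlap (σ 0) (σ l.succ) ^ (P.val + 1))| ≤
      4 ^ (P.val + 1) / s * fl f s μ pts P x := by
  set κ := s * x P * (1 / 4 : ℝ) ^ (P.val + 1) with hκ
  set m := ∫ d, gav (totalH (P := pts) f s x d) (gObs P d.2.2) ∂disLaw N L μ with hm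
  have hκpos : 0 < κ := mul_pos (mul_pos hs (by linarith)) (pow_pos (by norm_num) _)
  have hgi : ∀ σ : Conf pts, Integrable (fun d : Dis N L => gObs P d.2.2 σ) (disLaw N L μ) :=
    fun σ => (memLp_gObs μ P σ).integrable one_le_two
  have hgw : ∀ σ : Conf pts, Measurable fun d : Dis N L => gw (totalH (P := pts) f s x d) σ :=
    measurable_gw_fixed hf s x
  have iR : Integrable (fun d : Dis N L =>
      gav (totalH (P := pts) f s x d) fun σ => |gObs P d.2.2 σ - m|) (disLaw N L μ) :=
    integrable_finsetSum _ fun σ _ =>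
      ((hgi σ).sub (integrable_const m)).abs.bdd_mul (c := 1) (hgw σ).aestronglyMeasurable
        (ae_of_all _ fun d => by
          rw [Real.norm_eq_abs, abs_of_nonneg (gw_nonneg _ _)]; exact gw_le_one _ _)
  have iL : Integrable (fun d : Dis N L => rav (n + 1) (totalH (P := pts) f s x d)
      fun σ => F σ * gObs P d.2.2 (σ 0)) (disLaw N L μ) := by
    refine integrable_finsetSum _ fun σ _ => ?_
    simp only [← mul_assoc]
    refine (hgi _).bdd_mul (c := 1)
      ((Finset.measurable_prod _ fun l _ => hgw (σ l)).mul_const _).aestronglyMeasurable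
      (ae_of_all _ fun d => ?_)
    rw [Real.norm_eq_abs, abs_mul, Finset.abs_prod]
    exact mul_le_one₀ (Finset.prod_le_one (fun l _ => abs_nonneg _) fun l _ => by
      rw [abs_of_nonneg (gw_nonneg _ _)]; exact gw_le_one _ _) (abs_nonneg _) (hF _)
  have key : |∫ d, rav (n + 1) (totalH (P := pts) f s x d) (fun σ => F σ * gObs P d.2.2 (σ 0))
      ∂disLaw N L μ - m * expRep (pts := pts) f s μ x (n + 1) F| ≤ fl f s μ pts P x := by
    rw [expRep, ← integral_const_mul, ← integral_sub iL ((integrable_rav hf _ F).const_mul m)]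
    refine abs_integral_le_integral_abs.trans (integral_mono_of_nonneg
      (ae_of_all _ fun d => abs_nonneg _) iR (ae_of_all _ fun d => ?_))
    simp only [← hm]
    rw [← rav_first n (totalH (P := pts) f s x d) fun σ => |gObs P d.2.2 σ - m|, ← rav_const_mul]
    simp only [rav, ← Finset.sum_sub_distrib]
    refine (Finset.abs_sum_le_sum_abs _ _).trans (Finset.sum_le_sum fun σ _ => ?_)
    rw [← mul_sub, abs_mul, abs_of_nonneg (Finset.prod_nonneg fun l _ => gw_nonneg _ _)]
    refine mul_le_mul_of_nonneg_left ?_ (Finset.prod_nonneg fun l _ => gw_nonneg _ _)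
    rw [show F σ * gObs P d.2.2 (σ 0) - m * F σ = F σ * (gObs P d.2.2 (σ 0) - m) by ring, abs_mul]
    exact mul_le_of_le_one_left (abs_nonneg _) (hF _)
  rw [ibp_obs hf P n F, hm, mean_obs hf P, ← hκ] at key
  have hle : 1 / κ ≤ 4 ^ (P.val + 1) / s := by
    rw [div_le_div_iff₀ hκpos hs, hκ]
    have e : (4 : ℝ) ^ (P.val + 1) * (1 / 4) ^ (P.val + 1) = 1 := by rw [← mul_pow]; norm_num
    calc 1 * s ≤ s * x P := by nlinarith
      _ = s * x P * ((4 : ℝ) ^ (P.val + 1) * (1 / 4) ^ (P.val + 1)) := by rw [e, mul_one]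
      _ = _ := by ring
  refine le_trans ?_ (mul_le_mul_of_nonneg_right hle (fl_nonneg pts P))
  rw [one_div_mul_eq_div, le_div_iff₀' hκpos]
  refine le_trans (le_of_eq ?_) key
  rw [← abs_of_pos hκpos, ← abs_mul, ← abs_neg, abs_of_pos hκpos]
  ring_nf

end Vale.Agent.P157.Parisi.Sphere.Perturb
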