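import Vale.Agent.P168.Limit.SelfAvg.Gauss
import Vale.Agent.P347.GaussExp

/-! The variance of `log Z` in a Gaussian field is bounded by the largest variance of the field. -/

noncomputable section

open MeasureTheory ProbabilityTheory
open scoped BigOperators NNReal ENNReal

namespace Vale.Agent.P157.Parisi.Sphere.Perturb

open Vale.Agent.P168.Limit (logZ)
open Vale.Agent.P168.Limit.SelfAvg (field memLp_logZ_field abs_logZ_sub_le')
open Vale.Agent.P168.Toolkit (gaussPi)

/-- The variance of `log Z` in a Gaussian field with row norms at most `√v`. -/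
theorem field_variance_norm {X ι : Type*} [Fintype X] [Nonempty X] [Fintype ι] (A : X → ℝ)
    (φ : X → ι → ℝ) {v : ℝ} (hv0 : 0 ≤ v) (hv : ∀ x, ∑ i, φ x i ^ 2 ≤ v) :
    variance (fun z => logZ fun x => A x + field φ z x) (gaussPi ι) ≤ 2 * v := by
  classical
  set G : (ι → ℝ) → ℝ := fun z => logZ fun x => A x + field φ z x with hG
  set F : (EuclideanSpace ℝ ι) → ℝ := fun y => G (WithLp.ofLp y) with hF
  have hmp : MeasurePreserving (WithLp.toLp 2) (gaussPi ι) (stdGaussian (EuclideanSpace ℝ ι)) :=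
    ⟨(PiLp.continuous_toLp 2 _).measurable, map_pi_eq_stdGaussian⟩
  have hGm : Measurable G := Vale.Agent.P168.Limit.SelfAvg.measurable_logZ_field A φ
  have hFc : ContDiff ℝ 1 F := by
    simp only [hF, hG, logZ, field]
    refine ContDiff.log (ContDiff.sum fun x _ => ?_)
      fun y => (Finset.sum_pos (fun x _ => Real.exp_pos _) Finset.univ_nonempty).ne'
    fun_prop
  have hlip : LipschitzWith (Real.sqrt v).toNNReal F := by
    refine LipschitzWith.of_dist_le_mul fun y z => ?_
    rw [Real.coe_toNNReal _ (Real.sqrt_nonneg _), Real.dist_eq, dist_eq_norm, EuclideanSpace.norm_eq]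
    have hb : ∀ x, |field φ (WithLp.ofLp y) x - field φ (WithLp.ofLp z) x| ≤
        Real.sqrt v * Real.sqrt (∑ i, ‖(y - z) i‖ ^ 2) := by
      intro x
      have e : field φ (WithLp.ofLp y) x - field φ (WithLp.ofLp z) x =
          ∑ i, φ x i * (y - z) i := by
        simp only [field, ← Finset.sum_sub_distrib, WithLp.ofLp_sub, Pi.sub_apply, mul_sub]
      rw [e, ← Real.sqrt_mul hv0, ← Real.sqrt_sq_eq_abs]
      refine Real.sqrt_le_sqrt ((Finset.sum_mul_sq_le_sq_mul_sq _ _ _).trans ?_)
      simp only [Real.norm_eq_abs, sq_abs]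
      exact mul_le_mul_of_nonneg_right (hv x) (Finset.sum_nonneg fun i _ => sq_nonneg _)
    have h := abs_logZ_sub_le' (fun x => A x + field φ (WithLp.ofLp z) x)
      (fun x => field φ (WithLp.ofLp y) x - field φ (WithLp.ofLp z) x) hb
    refine le_trans (le_of_eq (congrArg (fun H => |logZ H - _|) (funext fun x => ?_))) h
    ring
  have hd : ∀ y, ‖fderiv ℝ F y‖ ^ 2 ≤ v := fun y =>
    (pow_le_pow_left₀ (norm_nonneg _) (norm_fderiv_le_of_lipschitz ℝ hlip) 2).trans_eq
      (by rw [Real.coe_toNNReal _ (Real.sqrt_nonneg _), Real.sq_sqrt hv0])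
  have hGL : MemLp G 2 (gaussPi ι) := memLp_logZ_field A φ
  have hFL : MemLp F 2 (stdGaussian (EuclideanSpace ℝ ι)) :=
    (memLp_map_measure_iff hFc.continuous.aestronglyMeasurable hmp.measurable.aemeasurable).2
      (by simpa [hF, Function.comp_def] using hGL) |> fun h => by rwa [hmp.map_eq] at h
  have hvar : variance G (gaussPi ι) = variance F (stdGaussian (EuclideanSpace ℝ ι)) := by
    rw [← hmp.variance_fun_comp hFc.continuous.aemeasurable]
  set μ := stdGaussian (EuclideanSpace ℝ ι)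
  have i1 : Integrable F μ := hFL.integrable one_le_two
  have i2 : Integrable (fun y => F y ^ 2) μ := hFL.integrable_sq
  have a1 : Integrable (fun p : EuclideanSpace ℝ ι × EuclideanSpace ℝ ι => F p.1 ^ 2) (μ.prod μ) := i2.comp_fst μ
  have a2 : Integrable (fun p : EuclideanSpace ℝ ι × EuclideanSpace ℝ ι => F p.2 ^ 2) (μ.prod μ) := i2.comp_snd μ
  have a3 : Integrable (fun p : EuclideanSpace ℝ ι × EuclideanSpace ℝ ι => F p.1 * F p.2) (μ.prod μ) := i1.mul_prod i1
  have a12 : Integrable (fun p : EuclideanSpace ℝ ι × EuclideanSpace ℝ ι => F p.2 ^ 2 + F p.1 ^ 2) (μ.prod μ) := a2.add a1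
  have e : ∫ p, (F p.2 - F p.1) ^ 2 ∂μ.prod μ = 2 * variance F μ := by
    have e0 : ∀ p : EuclideanSpace ℝ ι × EuclideanSpace ℝ ι, (F p.2 - F p.1) ^ 2 =
        F p.2 ^ 2 + F p.1 ^ 2 - 2 * (F p.1 * F p.2) := fun p => by ring
    simp_rw [e0]
    rw [integral_sub a12 (a3.const_mul 2), integral_add a2 a1, integral_const_mul,
      variance_eq_sub hFL, integral_fun_snd (fun y => F y ^ 2), integral_fun_fst (fun y => F y ^ 2),
      integral_prod_mul F F]
    simp only [probReal_univ, one_smul, Pi.pow_apply]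
    ring
  have h := Vale.Agent.P347.lintegral_sq_sub_le hFc
  have hle : ∫⁻ y, ENNReal.ofReal (‖fderiv ℝ F y‖ ^ 2) ∂μ ≤ ENNReal.ofReal v :=
    (lintegral_mono fun y => ENNReal.ofReal_le_ofReal (hd y)).trans_eq (by simp)
  have i3 : Integrable (fun p : EuclideanSpace ℝ ι × EuclideanSpace ℝ ι => (F p.2 - F p.1) ^ 2) (μ.prod μ) :=
    ((hFL.comp_snd μ).sub (hFL.comp_fst μ)).integrable_sq
  have h' := h.trans (mul_le_mul' le_rfl hle)
  rw [← ofReal_integral_eq_lintegral_ofReal i3 (ae_of_all _ fun p => sq_nonneg _), e,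
    ← ENNReal.ofReal_mul (by positivity), ENNReal.ofReal_le_ofReal_iff (by positivity)] at h'
  rw [hvar]
  nlinarith [mul_nonneg hv0 (by nlinarith [Real.pi_le_four, Real.pi_pos] :
    (0 : ℝ) ≤ 4 - Real.pi ^ 2 / 4)]

end Vale.Agent.P157.Parisi.Sphere.Perturb
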