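import Vale.Agent.P157.Parisi.Sphere.Perturb.Basic
import Vale.Agent.P157.Parisi.Sphere.Perturb.GaussVar

/-! The variance of the perturbed log partition function. -/

noncomputable section

open MeasureTheory ProbabilityTheory
open scoped BigOperators NNReal ENNReal

namespace Vale.Agent.P157.Parisi.Sphere.Perturb

open Vale.Agent.P157.Parisi.Perturb (absJ memLp_absJ sum_quarter_le variance_poisson_le)
open Vale.Agent.P168.Limit (gw logZ gav rav)
open Vale.Agent.P168.Limit.SelfAvg (field field_variance abs_logZ_sub_le' integrable_logZ_field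
  variance_prod_le abs_integral_sub_le)
open Vale.Agent.P168.Toolkit (efronStein memLp_sections
  integrable_count integral_count)

variable {N L : ℕ} {pts : Pts N} {f : ℝ → ℝ} {A : ℝ}

/-- The mean over the perturbation at given patterns. -/
def psi (f : ℝ → ℝ) (s : ℝ) (x : Fin L → ℝ) (I : Finset ℕ) (c : I → Fin N → ℝ) : ℝ :=
  ∫ J, logZ (fun σ : Conf pts => patH f I c σ + field (fun τ i => s * x i.1 * feat i τ) J σ)
    ∂gam (PertIdx N L)

lemma abs_psi_sub_le (s : ℝ) (x : Fin L → ℝ) (I : Finset ℕ) (c c' : I → Fin N → ℝ) {a : ℝ}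
    (h : ∀ σ, |patH (pts := pts) f I c' σ - patH f I c σ| ≤ a) :
    |psi (pts := pts) f s x I c - psi (pts := pts) f s x I c'| ≤ a := by
  rw [abs_sub_comm]
  refine abs_integral_sub_le (integrable_logZ_field _ _) (integrable_logZ_field _ _) fun J => ?_
  have h' := abs_logZ_sub_le' (fun σ => patH f I c σ +
    field (fun τ i => s * x i.1 * feat i τ) J σ) (fun σ => patH f I c' σ - patH f I c σ) h
  exact le_trans (le_of_eq (congrArg (fun H => |logZ H - _|) (funext fun σ => by ring))) h'

lemma field_part_variance [NeZero N] (s : ℝ) {x : Fin L → ℝ} (hx : ∀ P, |x P| ≤ 3)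
    (H : Conf pts → ℝ) :
    variance (fun J => logZ fun σ => H σ + field (fun τ c => s * x c.1 * feat c τ) J σ)
      (gam (PertIdx N L)) ≤ 6 * s ^ 2 := by
  refine (field_variance_norm H _ (v := 3 * s ^ 2) (by positivity) fun σ => ?_).trans_eq (by ring)
  have e : ∀ P : Fin L, ∑ v : Fin (P.val + 1) → Fin N, (s * x P * feat ⟨P, v⟩ σ) ^ 2 ≤
      9 * s ^ 2 * (1 / 4) ^ (P.val + 1) := by
    intro P
    simp only [mul_pow (s * x P), ← Finset.mul_sum, sq (feat _ σ), sum_feat_mul, overlap_self,
      one_pow, mul_one]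
    refine mul_le_mul_of_nonneg_right ?_ (by positivity)
    rw [mul_pow, mul_comm]
    refine mul_le_mul_of_nonneg_right ?_ (sq_nonneg s)
    have h := pow_le_pow_left₀ (abs_nonneg _) (hx P) 2
    rw [sq_abs] at h
    linarith
  rw [Fintype.sum_sigma]
  refine (Finset.sum_le_sum fun P _ => e P).trans ?_
  rw [← Finset.mul_sum]
  nlinarith [sum_quarter_le L, sq_nonneg s]

lemma memLp_section [NeZero N] (hf : Continuous f) (hb : ∀ z, |f z| ≤ A) (s : ℝ) (x : Fin L → ℝ)
    (n : ℕ) : MemLp (fun w : (ℕ → Fin N → ℝ) × (PertIdx N L → ℝ) => logZ (totalH (P := pts) f s x (n, w))) 2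
      ((Measure.infinitePi fun _ : ℕ => gam (Fin N)).prod (gam (PertIdx N L))) := by
  have h : MemLp (absJ (N := N) (L := L)) 2 (gam (PertIdx N L)) :=
    memLp_finsetSum _ fun c _ => (memLp_id_gaussianReal 2).abs.comp_measurePreserving
      (measurePreserving_eval (fun _ : PertIdx N L => gaussianReal 0 1) c)
  have h2 := (memLp_const (|logZ (fun _ : Conf pts => (0 : ℝ))| + A * n)).add
    ((h.comp_snd (Measure.infinitePi fun _ : ℕ => gam (Fin N))).const_mul (|s| * ∑ P, |x P|))
  have hm : Measurable fun d : Dis N L => logZ (totalH (P := pts) f s x d) :=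
    (Finset.measurable_sum _ fun σ _ =>
      ((measurable_totalH hf s σ).comp measurable_prodMk_left).exp).log
  exact h2.mono (hm.comp measurable_prodMk_left).aestronglyMeasurable (ae_of_all _ fun w => by
    rw [Real.norm_eq_abs, Real.norm_eq_abs]
    exact (abs_logZ_totalH_le hb s x (n, w)).trans (le_abs_self _))

lemma measurable_psi (hf : Continuous f) (s : ℝ) (x : Fin L → ℝ) (I : Finset ℕ) :
    Measurable (psi (pts := pts) f s x I) := by
  have h : Measurable fun z : (I → Fin N → ℝ) × (PertIdx N L → ℝ) =>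
      logZ (fun σ : Conf pts => patH f I z.1 σ + field (fun τ i => s * x i.1 * feat i τ) z.2 σ) :=
    (Finset.measurable_sum Finset.univ fun (σ : Conf pts) _ =>
      (((measurable_patH hf I σ).comp measurable_fst).add
      ((Vale.Agent.P168.Limit.SelfAvg.measurable_field
        (fun (τ : Conf pts) (i : PertIdx N L) => s * x i.1 * feat i τ) σ).comp
          measurable_snd)).exp).log
  exact h.stronglyMeasurable.integral_prod_right'.measurable

lemma psi_variance [NeZero N] (hf : Continuous f) (hb : ∀ z, |f z| ≤ A) (s : ℝ)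
    (x : Fin L → ℝ) (I : Finset ℕ) :
    variance (psi (pts := pts) f s x I) (Measure.pi fun _ : I => gam (Fin N)) ≤
      2 * A ^ 2 * I.card := by
  classical
  have hm := measurable_psi (pts := pts) hf s x I
  have hsub : ∀ (c c' : I → Fin N → ℝ) (σ : Conf pts),
      |patH (pts := pts) f I c' σ - patH f I c σ| ≤ 2 * A * I.card := by
    intro c c' σ
    linarith [abs_patH_le hb I c σ, abs_patH_le hb I c' σ, abs_sub (patH f I c' σ) (patH f I c σ)]
  refine (efronStein _ hm (MemLp.of_bound hm.aestronglyMeasurable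
    (|psi (pts := pts) f s x I 0| + 2 * A * I.card) (ae_of_all _ fun c => ?_))
    (d := fun _ _ _ => 2 * A) (fun _ => integrable_const _) fun c k a => ?_).trans_eq ?_
  · have := abs_psi_sub_le (f := f) s x I c 0 (hsub c 0)
    rw [Real.norm_eq_abs]
    linarith [abs_sub_abs_le_abs_sub (psi (pts := pts) f s x I c) (psi (pts := pts) f s x I 0)]
  · refine abs_psi_sub_le s x _ _ _ fun σ => ?_
    simp only [patH, ← Finset.sum_sub_distrib]
    rw [Fintype.sum_eq_single k fun j hj => by simp [Function.update_of_ne hj]]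
    refine (abs_sub _ _).trans ?_
    linarith [hb (dot (Function.update c k a k) (unitVec σ)), hb (dot (c k) (unitVec σ))]
  · simp only [integral_const, probReal_univ, one_smul, Finset.sum_const, Finset.card_univ,
      Fintype.card_coe, nsmul_eq_mul]
    ring

lemma pattern_variance [NeZero N] (hf : Continuous f) (hb : ∀ z, |f z| ≤ A) (s : ℝ)
    (x : Fin L → ℝ) (n : ℕ) :
    variance (fun g : ℕ → Fin N → ℝ => ∫ J, logZ (totalH (P := pts) f s x (n, g, J)) ∂gam (PertIdx N L))
      (Measure.infinitePi fun _ : ℕ => gam (Fin N)) ≤ 2 * A ^ 2 * n := by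
  have e : (fun g : ℕ → Fin N → ℝ => ∫ J, logZ (totalH (P := pts) f s x (n, g, J)) ∂gam (PertIdx N L)) =
      fun g => psi (pts := pts) f s x (Finset.range n) ((Finset.range n).restrict g) := by
    funext g
    simp only [psi, totalH_eq]
    rfl
  have hn : ((Finset.range n).card : ℝ) = n := by rw [Finset.card_range]
  rw [e, ← hn]
  generalize Finset.range n = I
  have hres : MeasurePreserving I.restrict (Measure.infinitePi fun _ : ℕ => gam (Fin N))
      (Measure.pi fun _ : I => gam (Fin N)) :=
    ⟨I.measurable_restrict, Measure.infinitePi_map_restrict (μ := fun _ : ℕ => gam (Fin N))⟩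
  rw [hres.variance_fun_comp (measurable_psi (pts := pts) hf s x I).aemeasurable]
  exact psi_variance hf hb s x I

/-- The variance bound. -/
theorem logZ_variance [NeZero N] (hf : Continuous f) (hb : ∀ z, |f z| ≤ A) (s : ℝ) {μ : ℝ}
    (hμ : 0 ≤ μ) {x : Fin L → ℝ} (hx : ∀ P, |x P| ≤ 3) :
    variance (fun d => logZ (totalH (P := pts) f s x d)) (disLaw N L μ) ≤ 6 * s ^ 2 + 3 * A ^ 2 * μ := by
  have hmem := memLp_logZ (pts := pts) hf hb s μ x
  have hsec := memLp_section (pts := pts) hf hb s x
  unfold disLaw at hmem ⊢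
  have hg : Integrable (fun n : ℕ => 6 * s ^ 2 + 2 * A ^ 2 * (n : ℝ))
      (poissonMeasure μ.toNNReal) :=
    (integrable_const _).add ((integrable_count _).const_mul _)
  refine le_trans (variance_prod_le (μ := poissonMeasure μ.toNNReal)
    (ν := (Measure.infinitePi fun _ : ℕ => gam (Fin N)).prod (gam (PertIdx N L)))
    (f := fun d : Dis N L => logZ (totalH (P := pts) f s x d)) hmem
    (g := fun n : ℕ => 6 * s ^ 2 + 2 * A ^ 2 * (n : ℝ))
    (W := 6 * s ^ 2 + 2 * A ^ 2 * μ) (V := A ^ 2 * μ) hg (fun n => ?_) ?_ ?_) (le_of_eq (by ring))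
  · refine variance_prod_le (hsec n) (g := fun _ => 6 * s ^ 2) (integrable_const _) (fun g => ?_)
      (le_of_eq (by simp)) (pattern_variance hf hb s x n)
    simp only [totalH_eq]
    exact field_part_variance s hx _
  · rw [integral_add (integrable_const _) ((integrable_count _).const_mul _),
      integral_const_mul (2 * A ^ 2), integral_count]
    simp [Real.coe_toNNReal μ hμ]
  · refine (variance_poisson_le (memLp_sections hmem).2 fun n => ?_).trans_eq
      (by rw [Real.coe_toNNReal μ hμ])
    refine abs_integral_sub_le ((hsec _).integrable one_le_two) ((hsec _).integrable one_le_two)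
      fun w => ?_
    have h := abs_logZ_sub_le' (totalH (P := pts) f s x (n, w))
      (fun σ => f (dot (w.1 n) (unitVec σ))) (c := A) fun σ => hb _
    refine le_trans (le_of_eq (congrArg (fun H => |logZ H - _|) (funext fun σ => ?_))) h
    simp only [totalH, Finset.sum_range_succ]
    ring

end Vale.Agent.P157.Parisi.Sphere.Perturb
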