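import Vale.Agent.P157.Parisi.Sphere.Statements
import Vale.Agent.P157.Parisi.Sphere.Perturb.Variance
import Vale.Agent.P157.Parisi.Sphere.Perturb.Identity

/-! The perturbation forces the Ghirlanda–Guerra identities: module D. -/

noncomputable section

open MeasureTheory ProbabilityTheory Filter
open scoped BigOperators NNReal ENNReal Topology

namespace Vale.Agent.P157.Parisi.Sphere.Perturb

open Vale.Agent.P157.Parisi.Perturb (absJ memLp_absJ mean_abs_dev_le)
open Vale.Agent.P168.Limit (gw logZ gav rav gw_nonneg abs_gav_le_of_le gav_const_mul)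
open Vale.Agent.P168.Limit.SelfAvg (self_average_one updateOne_preserving)

variable {N L : ℕ} {pts : Pts N} {f : ℝ → ℝ} {A s μ : ℝ}

lemma measurable_fl (hf : Continuous f) (P : Fin L) :
    Measurable (fl f s μ pts P : (Fin L → ℝ) → ℝ) := by
  have hg : ∀ σ : Conf pts, Measurable fun z : (Fin L → ℝ) × Dis N L => gObs P z.2.2.2 σ := fun σ =>
    (measurable_gObs P σ).comp (measurable_snd.comp (measurable_snd.comp measurable_snd))
  have hm : Measurable fun z : (Fin L → ℝ) × Dis N L =>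
      gav (totalH (P := pts) f s z.1 z.2) (gObs P z.2.2.2) :=
    Finset.measurable_sum _ fun (σ : Conf pts) _ => (measurable_gw hf s σ).mul (hg σ)
  have hc : Measurable fun x : Fin L → ℝ =>
      ∫ d', gav (totalH (P := pts) f s x d') (gObs P d'.2.2) ∂disLaw N L μ :=
    (hm.stronglyMeasurable.integral_prod_right' (ν := disLaw N L μ)).measurable
  have hd : Measurable fun z : (Fin L → ℝ) × Dis N L => gav (totalH (P := pts) f s z.1 z.2) fun σ =>
      |gObs P z.2.2.2 σ - ∫ d', gav (totalH (P := pts) f s z.1 d') (gObs P d'.2.2) ∂disLaw N L μ| :=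
    Finset.measurable_sum _ fun (σ : Conf pts) _ =>
      (measurable_gw hf s σ).mul ((hg σ).sub (hc.comp measurable_fst)).abs
  exact (hd.stronglyMeasurable.integral_prod_right' (ν := disLaw N L μ)).measurable

lemma fl_le [NeZero N] (P : Fin L) (x : Fin L → ℝ) :
    fl f s μ pts P x ≤ 2 * ∫ d : Dis N L, absJ d.2.2 ∂disLaw N L μ := by
  have hbi : Integrable (fun d : Dis N L => absJ d.2.2) (disLaw N L μ) :=
    (memLp_absJ μ).integrable one_le_two
  set M := ∫ d : Dis N L, absJ d.2.2 ∂disLaw N L μ with hM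
  have hc : |∫ d', gav (totalH (P := pts) f s x d') (gObs P d'.2.2) ∂disLaw N L μ| ≤ M := by
    rw [← Real.norm_eq_abs]
    exact norm_integral_le_of_norm_le hbi
      (ae_of_all _ fun d => abs_gav_le_of_le _ fun σ => abs_gObs_le P _ σ)
  refine le_trans (integral_mono_of_nonneg (ae_of_all _ fun d =>
    Finset.sum_nonneg fun σ _ => mul_nonneg (gw_nonneg _ _) (abs_nonneg _))
    (hbi.add (integrable_const M)) (ae_of_all _ fun d => ?_)) (le_of_eq ?_)
  · refine (le_abs_self _).trans (abs_gav_le_of_le _ fun σ => ?_)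
    rw [abs_abs]
    exact (abs_sub _ _).trans (add_le_add (abs_gObs_le P _ σ) hc)
  · simp only [Pi.add_apply]
    rw [integral_add hbi (integrable_const M)]
    simp [hM]
    ring

/-- The fluctuation averaged over one tuning parameter. -/
theorem average_fl_le [NeZero N] (hf : Continuous f) (hb : ∀ z, |f z| ≤ A) (hs : 0 < s) (hμ : 0 ≤ μ)
    {b y : ℝ} (hb0 : 0 < b) (hy : 0 < y) (hy1 : y ≤ 1) (P : Fin L) {x : Fin L → ℝ}
    (hx : ∀ Q, |x Q| ≤ 3) :
    ∫ t in Set.Icc (1 : ℝ) 2, fl f s μ pts P (Function.update x P t) ≤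
      5 / 2 + 3 * ((6 * s ^ 2 + 3 * A ^ 2 * μ) / (2 * b) + b / 2) / (y * s) + 8 * y * s := by
  have hfun : ∀ t (d : Dis N L), (fun σ => totalH (P := pts) f s (Function.update x P 0) d σ +
      t * (s * gObs P d.2.2 σ)) = totalH (P := pts) f s (Function.update x P t) d := fun t d =>
    funext fun σ => (totalH_update f s x P t d σ).symm
  have hmeas : ∀ σ : Conf pts, Measurable fun d : Dis N L =>
      totalH (P := pts) f s (Function.update x P 0) d σ := by
    intro σ
    have h : Measurable fun d : Dis N L => totalH (P := pts) f s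
        (Function.update x P 0, d).1 (Function.update x P 0, d).2 σ :=
      (measurable_totalH hf s σ).comp measurable_prodMk_left
    exact h
  have h := self_average_one (ν := disLaw N L μ)
    (H := fun d σ => totalH (P := pts) f s (Function.update x P 0) d σ)
    (O := fun d σ => s * gObs P d.2.2 σ) hmeas
    (fun σ => ((measurable_gObs P σ).comp (measurable_snd.comp measurable_snd)).const_mul s)
    (fun σ => ((memLp_gObs μ P σ).const_mul s).integrable one_le_two)
    (fun σ => ((memLp_gObs μ P σ).const_mul s).integrable_sq)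
    (fun t => by
      simp only [hfun]
      exact (memLp_logZ hf hb s μ _).integrable one_le_two)
    (V := (6 * s ^ 2 + 3 * A ^ 2 * μ) / (2 * b) + b / 2) (B := 2 * s ^ 2) (a := s) hs hy hy1
    (fun t ht => by
      simp only [hfun]
      refine mean_abs_dev_le (memLp_logZ hf hb s μ _) (logZ_variance hf hb s hμ fun Q => ?_) hb0
      by_cases hQ : Q = P
      · subst hQ
        rw [Function.update_self, abs_of_nonneg ht.1]
        exact ht.2
      · rw [Function.update_of_ne hQ]; exact hx Q)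
    (fun t ht => by
      simp only [hfun, gav_const_mul, integral_const_mul]
      rw [mean_obs hf P, Function.update_self]
      obtain ⟨r, hr⟩ : ∃ r, r = expRep (pts := pts) f s μ (Function.update x P t) 2
          fun σ : Fin 2 → Conf pts => overlap (σ 0) (σ 1) ^ (P.val + 1) := ⟨_, rfl⟩
      have hr1 : |r| ≤ 1 := hr ▸ abs_expRep_le 2 fun σ => abs_overlap_pow_le _ _ _
      obtain ⟨q, hq⟩ : ∃ q : ℝ, q = (1 / 4) ^ (P.val + 1) := ⟨_, rfl⟩
      have hq0 : 0 ≤ q := hq ▸ by positivity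
      have hq1 : q ≤ 1 / 4 := hq ▸ pow_le_of_le_one (by norm_num) (by norm_num) (by omega)
      rw [← hr, ← hq]
      rw [show s * (s * t * q * (1 - r)) = s ^ 2 * (t * q * (1 - r)) by ring, abs_mul,
        abs_of_nonneg (sq_nonneg s), mul_comm (2 : ℝ)]
      refine mul_le_mul_of_nonneg_left ?_ (sq_nonneg s)
      rw [abs_mul, abs_of_nonneg (mul_nonneg ht.1 hq0)]
      have h2 : |1 - r| ≤ 2 := by linarith [abs_sub (1 : ℝ) r, abs_one (α := ℝ)]
      calc t * q * |1 - r| ≤ (3 * (1 / 4)) * 2 :=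
            mul_le_mul (mul_le_mul ht.2 hq1 hq0 (by norm_num)) h2 (abs_nonneg _) (by norm_num)
        _ ≤ 2 := by norm_num)
  simp only [hfun] at h
  have e : ∀ t : ℝ, ∫ d, gav (totalH (P := pts) f s (Function.update x P t) d) (fun σ : Conf pts =>
      |s * gObs P d.2.2 σ - ∫ d', gav (totalH (P := pts) f s (Function.update x P t) d')
        (fun τ => s * gObs P d'.2.2 τ) ∂disLaw N L μ|) ∂disLaw N L μ =
      s * fl f s μ pts P (Function.update x P t) := fun t => by
    simp only [gav_const_mul, integral_const_mul, ← mul_sub, abs_mul, abs_of_pos hs, fl]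
  simp only [e, integral_const_mul] at h
  rw [← le_div_iff₀' hs] at h
  refine h.trans (le_of_eq ?_)
  field_simp
  ring

/-- The error of the identity. -/
def pertErr (f : ℝ → ℝ) (pts : Pts N) (μ : ℕ → ℝ) (p : ℕ) (x : Fin N → ℝ) : ℝ :=
  if h : p < N then min 2 (4 ^ (p + 1) / scale N * fl f (scale N) (μ N) pts ⟨p, h⟩ x) else 2

lemma pertErr_bounds (f : ℝ → ℝ) (pts : Pts N) (μ : ℕ → ℝ) (p : ℕ) (x : Fin N → ℝ) :
    0 ≤ pertErr f pts μ p x ∧ pertErr f pts μ p x ≤ 2 := by
  unfold pertErr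
  split_ifs
  · refine ⟨le_min zero_le_two (mul_nonneg (div_nonneg (by positivity) ?_) (fl_nonneg pts _)),
      min_le_left _ _⟩
    exact Real.rpow_nonneg (Nat.cast_nonneg _) _
  · exact ⟨zero_le_two, le_rfl⟩

lemma measurable_pertErr (hf : Continuous f) (pts : Pts N) (μ : ℕ → ℝ) (p : ℕ) :
    Measurable (pertErr f pts μ p) := by
  unfold pertErr
  split_ifs with h
  · exact measurable_const.min ((measurable_fl hf ⟨p, h⟩).const_mul _)
  · exact measurable_const

lemma ggWithin_pertErr (hf : Continuous f) (pts : Pts N) (μ : ℕ → ℝ) (p : ℕ) (x : Fin N → ℝ)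
    (hx : ∀ i, x i ∈ Set.Icc (1 : ℝ) 2) :
    GGWithin (sysState pts f (scale N) x (μ N)) p (pertErr f pts μ p x) := by
  intro n F hF
  simp only [repMean_eq]
  have h2 : |((n : ℝ) + 1) * expRep (pts := pts) f (scale N) (μ N) x (n + 2)
        (fun σ => F (fun l => σ l.castSucc) * overlap (σ 0) (σ (Fin.last (n + 1))) ^ (p + 1)) -
      (expRep (pts := pts) f (scale N) (μ N) x (n + 1) F *
          expRep (pts := pts) f (scale N) (μ N) x 2 (fun σ : Fin 2 → Conf pts => overlap (σ 0) (σ 1) ^ (p + 1)) +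
        ∑ l : Fin n, expRep (pts := pts) f (scale N) (μ N) x (n + 1)
          fun σ => F σ * overlap (σ 0) (σ l.succ) ^ (p + 1))| ≤ ((n : ℝ) + 1) * 2 := by
    have b : ∀ (m : ℕ) (G : (Fin m → Conf pts) → ℝ), (∀ σ, |G σ| ≤ 1) →
        |expRep (pts := pts) f (scale N) (μ N) x m G| ≤ 1 := fun m G h => abs_expRep_le m h
    have hp : ∀ {α : Type} (u : α → ℝ) (a : α) (σ τ : Conf pts), |u a| ≤ 1 →
        |u a * overlap σ τ ^ (p + 1)| ≤ 1 := fun u a σ τ h => by
      rw [abs_mul]
      exact mul_le_one₀ h (abs_nonneg _) (abs_overlap_pow_le _ _ _)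
    refine (abs_sub _ _).trans ?_
    rw [show ((n : ℝ) + 1) * 2 = ((n : ℝ) + 1) * 1 + (1 * 1 + ∑ _l : Fin n, (1 : ℝ)) by
      simp; ring]
    refine add_le_add ?_ ((abs_add_le _ _).trans (add_le_add ?_ ?_))
    · rw [abs_mul, abs_of_nonneg (by positivity : (0 : ℝ) ≤ (n : ℝ) + 1)]
      exact mul_le_mul_of_nonneg_left (b _ _ fun σ => hp _ _ _ _ (hF _)) (by positivity)
    · rw [abs_mul]
      exact mul_le_mul (b _ _ hF) (b _ _ fun σ => abs_overlap_pow_le _ _ _) (abs_nonneg _)
        zero_le_one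
    · exact (Finset.abs_sum_le_sum_abs _ _).trans
        (Finset.sum_le_sum fun l _ => b _ _ fun σ => hp _ _ _ _ (hF _))
  unfold pertErr
  split_ifs with h
  · rw [mul_min_of_nonneg _ _ (by positivity : (0 : ℝ) ≤ (n : ℝ) + 1)]
    refine le_min h2 ?_
    have hN : 0 < N := by omega
    have : NeZero N := ⟨hN.ne'⟩
    have hs : 0 < scale N := Real.rpow_pos_of_pos (by exact_mod_cast hN) _
    exact (identity_le (x := x) (μ := μ N) hf hs ⟨p, h⟩ (hx _).1 n hF).trans
      (le_mul_of_one_le_left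
        (mul_nonneg (div_nonneg (by positivity) hs.le) (fl_nonneg pts _))
        (le_add_of_nonneg_left (Nat.cast_nonneg _)))
  · exact h2

lemma integral_pertErr_le (hf : Continuous f) (hb : ∀ z, |f z| ≤ A) {μ : ℕ → ℝ} {p : ℕ}
    (hp : p < N) (hμ : 0 ≤ μ N) {K : ℝ} (hK : 6 * scale N ^ 2 + 3 * A ^ 2 * μ N ≤ K * N) :
    ∫ x, pertErr f pts μ p x ∂xLaw N ≤ 4 ^ (p + 1) *
      (5 / 2 / scale N + (3 * (K + 1) / 2 + 8) * (N : ℝ) ^ (-(1 / 8 : ℝ))) := by
  have hN : 0 < N := by omega
  have : NeZero N := ⟨hN.ne'⟩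
  have hNr : (0 : ℝ) < N := by exact_mod_cast hN
  have hs : 0 < scale N := Real.rpow_pos_of_pos hNr _
  have hI : IsProbabilityMeasure (volume.restrict (Set.Icc (1 : ℝ) 2)) := ⟨by simp; norm_num⟩
  have hxl : IsProbabilityMeasure (xLaw N) := by unfold xLaw; infer_instance
  set y := (N : ℝ) ^ (-(1 / 8 : ℝ)) with hy
  have hy0 : 0 < y := Real.rpow_pos_of_pos hNr _
  have hy1 : y ≤ 1 :=
    Real.rpow_le_one_of_one_le_of_nonpos (by exact_mod_cast hN) (by norm_num)
  have hsq : Real.sqrt N = y * scale N ^ 2 * y := by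
    rw [hy, scale, ← Real.rpow_natCast, ← Real.rpow_mul hNr.le, ← Real.rpow_add hNr,
      ← Real.rpow_add hNr, Real.sqrt_eq_rpow]
    norm_num
  have hdm := measurable_pertErr hf pts μ p
  have hdb : ∀ x, ‖pertErr f pts μ p x‖ ≤ 2 := fun x => by
    rw [Real.norm_eq_abs, abs_of_nonneg (pertErr_bounds f pts μ p x).1]
    exact (pertErr_bounds f pts μ p x).2
  have hmp := updateOne_preserving (fun _ : Fin N => volume.restrict (Set.Icc (1 : ℝ) 2)) ⟨p, hp⟩
  have e : ∫ x, pertErr f pts μ p x ∂xLaw N = ∫ x, ∫ t in Set.Icc (1 : ℝ) 2,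
      pertErr f pts μ p (Function.update x ⟨p, hp⟩ t) ∂volume ∂xLaw N := by
    unfold xLaw
    conv_lhs => rw [← hmp.map_eq]
    rw [integral_map hmp.measurable.aemeasurable hdm.aestronglyMeasurable]
    exact integral_prod
      (fun z : (Fin N → ℝ) × ℝ => pertErr f pts μ p (Function.update z.1 ⟨p, hp⟩ z.2))
      (Integrable.of_bound (hdm.comp hmp.measurable).aestronglyMeasurable _
        (ae_of_all _ fun z => hdb _))
  rw [e]
  have hae : ∀ᵐ x ∂xLaw N, ∀ i, |x i| ≤ 3 := by
    refine ae_all_iff.2 fun i => ?_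
    unfold xLaw
    refine (measurePreserving_eval (fun _ : Fin N => volume.restrict (Set.Icc (1 : ℝ) 2)) i
      ).quasiMeasurePreserving.ae (p := fun t => |t| ≤ 3) ?_
    rw [ae_restrict_iff' measurableSet_Icc]
    exact ae_of_all _ fun t ht => by rw [abs_of_nonneg (by linarith [ht.1])]; linarith [ht.2]
  refine (integral_mono_of_nonneg
    (ae_of_all _ fun x => integral_nonneg fun t => (pertErr_bounds f pts μ p _).1)
    (integrable_const (4 ^ (p + 1) * (5 / 2 / scale N + (3 * (K + 1) / 2 + 8) * y)))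
    (hae.mono fun x hx => ?_)).trans_eq (by simp)
  have hfi : Integrable (fun t => fl f (scale N) (μ N) pts ⟨p, hp⟩ (Function.update x ⟨p, hp⟩ t))
      (volume.restrict (Set.Icc (1 : ℝ) 2)) :=
    Integrable.of_bound ((measurable_fl hf ⟨p, hp⟩).comp (measurable_update x)).aestronglyMeasurable
      _ (ae_of_all _ fun t => by
        rw [Real.norm_eq_abs, abs_of_nonneg (fl_nonneg pts _)]; exact fl_le _ _)
  refine (integral_mono_of_nonneg (ae_of_all _ fun t => (pertErr_bounds f pts μ p _).1)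
    (hfi.const_mul (4 ^ (p + 1) / scale N)) (ae_of_all _ fun t => ?_)).trans ?_
  · simp only [pertErr, dif_pos hp]
    exact min_le_right _ _
  rw [integral_const_mul]
  refine (mul_le_mul_of_nonneg_left (average_fl_le hf hb hs hμ (Real.sqrt_pos.2 hNr) hy0 hy1
    ⟨p, hp⟩ hx) (by positivity : (0 : ℝ) ≤ 4 ^ (p + 1) / scale N)).trans ?_
  have h1 : (6 * scale N ^ 2 + 3 * A ^ 2 * μ N) / (2 * Real.sqrt N) ≤ K / 2 * Real.sqrt N := by
    rw [div_le_iff₀ (mul_pos two_pos (Real.sqrt_pos.2 hNr))]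
    calc _ ≤ K * N := hK
      _ = _ := by linear_combination (-K) * Real.mul_self_sqrt hNr.le
  rw [div_mul_eq_mul_div, div_le_iff₀ hs]
  beta_reduce
  rw [mul_assoc ((4 : ℝ) ^ (p + 1))]
  refine mul_le_mul_of_nonneg_left (a := (4 : ℝ) ^ (p + 1)) ?_ (by positivity)
  have h3 : 3 * ((6 * scale N ^ 2 + 3 * A ^ 2 * μ N) / (2 * Real.sqrt N) + Real.sqrt N / 2) /
      (y * scale N) ≤ 3 * (K / 2 * Real.sqrt N + Real.sqrt N / 2) / (y * scale N) :=
    div_le_div_of_nonneg_right (by linarith) (by positivity)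
  have h4 : 3 * (K / 2 * Real.sqrt N + Real.sqrt N / 2) / (y * scale N) =
      3 * (K + 1) / 2 * y * scale N := by
    rw [hsq]; field_simp
  rw [add_mul, div_mul_cancel₀ _ hs.ne']
  linarith

lemma tendsto_rate (p : ℕ) (K : ℝ) : Tendsto (fun N : ℕ => (4 : ℝ) ^ (p + 1) *
    (5 / 2 / scale N + K * (N : ℝ) ^ (-(1 / 8 : ℝ)))) atTop (𝓝 0) := by
  have h1 : Tendsto scale atTop atTop :=
    (tendsto_rpow_atTop (by norm_num)).comp tendsto_natCast_atTop_atTop
  have h2 : Tendsto (fun N : ℕ => (N : ℝ) ^ (-(1 / 8 : ℝ))) atTop (𝓝 0) :=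
    (tendsto_rpow_neg_atTop (by norm_num)).comp tendsto_natCast_atTop_atTop
  have h3 := (((tendsto_const_nhds (x := (5 / 2 : ℝ))).div_atTop h1).add (h2.const_mul K)).const_mul
    ((4 : ℝ) ^ (p + 1))
  simpa using h3

theorem perturbS : PerturbS := by
  intro α A C f hα hf P μ hμ0 hμ
  have hc : Continuous f := hf.d0.continuous
  refine ⟨fun N p => pertErr f (P N) μ p, fun N p => measurable_pertErr hc (P N) μ p,
    fun N p x => pertErr_bounds f (P N) μ p x,
    fun N p x hx => ggWithin_pertErr hc (P N) μ p x hx, fun p => ?_⟩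
  set K := 6 + 3 * A ^ 2 * (α + |C|) with hK
  refine squeeze_zero' (Eventually.of_forall fun N => integral_nonneg fun x =>
    (pertErr_bounds f (P N) μ p x).1) ?_ (tendsto_rate p (3 * (K + 1) / 2 + 8))
  filter_upwards [eventually_gt_atTop p] with N hN
  refine integral_pertErr_le (pts := P N) hc hf.b0 hN (hμ0 N) ?_
  have hN1 : (1 : ℝ) ≤ N := by exact_mod_cast (by omega : 1 ≤ N)
  have h1 : scale N ^ 2 ≤ N := by
    rw [scale, ← Real.rpow_natCast, ← Real.rpow_mul (by positivity)]
    exact (Real.rpow_le_rpow_of_exponent_le hN1 (by norm_num)).trans_eq (Real.rpow_one _)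
  have h2 : μ N ≤ (α + |C|) * N := by
    nlinarith [(abs_le.1 (hμ N)).2, le_abs_self C, abs_nonneg C]
  have h3 := mul_le_mul_of_nonneg_left h2 (by positivity : (0 : ℝ) ≤ 3 * A ^ 2)
  rw [hK]
  linarith

end Vale.Agent.P157.Parisi.Sphere.Perturb
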